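import Mathlib
import Vale.Agent.P002.CurveRep

/-!
Integral representations with prescribed quasi-unipotent boundary classes of the fundamental group
of a curve of genus at least five are dense near an irreducible integral representation, in every
rank, over a single number field.
-/

namespace Vale.Agent.Results.P002.PuncturedCurvesSLr

open Matrix

theorem result :
    ∀ (g s r : ℕ), (5 ≤ g ∨ s = 0 ∧ 3 ≤ g) → 2 ≤ r → ∀ C : Fin s → Matrix.SpecialLinearGroup (Fin r) ℂ,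
    (∀ k μ, (C k : Matrix (Fin r) (Fin r) ℂ).charpoly.IsRoot μ → ∃ m : ℕ, 0 < m ∧ μ ^ m = 1) →
    ∃ L : IntermediateField ℚ ℂ, FiniteDimensional ℚ L ∧ (s = 0 → L = ⊥) ∧
    ∃ (A B : Fin g → Matrix.SpecialLinearGroup (Fin r) ℂ)
      (Γ : Fin s → Matrix.SpecialLinearGroup (Fin r) ℂ),
      (List.ofFn fun i => A i * B i * (A i)⁻¹ * (B i)⁻¹).prod * (List.ofFn Γ).prod = 1 ∧
      (∀ k, IsConj (C k) (Γ k)) ∧
      (∀ c : (Fin g ⊕ Fin g ⊕ Fin s) × Fin r × Fin r,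
        (Sum.elim A (Sum.elim B Γ) c.1) c.2.1 c.2.2 ∈ L ∧
        IsIntegral ℤ ((Sum.elim A (Sum.elim B Γ) c.1) c.2.1 c.2.2)) ∧
      Algebra.adjoin ℂ (Set.range fun i => (A i : Matrix (Fin r) (Fin r) ℂ)) = ⊤ ∧
      ∃ U : Set ((Fin g ⊕ Fin g ⊕ Fin s) × Fin r × Fin r → ℂ), IsOpen U ∧
        (fun c => (Sum.elim A (Sum.elim B Γ) c.1) c.2.1 c.2.2) ∈ U ∧
        ∀ P : MvPolynomial ((Fin g ⊕ Fin g ⊕ Fin s) × Fin r × Fin r) ℂ,
          (∀ (A' B' : Fin g → Matrix.SpecialLinearGroup (Fin r) ℂ)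
            (Γ' : Fin s → Matrix.SpecialLinearGroup (Fin r) ℂ),
            (List.ofFn fun i => A' i * B' i * (A' i)⁻¹ * (B' i)⁻¹).prod * (List.ofFn Γ').prod = 1 →
            (∀ k, IsConj (C k) (Γ' k)) →
            (∀ c : (Fin g ⊕ Fin g ⊕ Fin s) × Fin r × Fin r,
              (Sum.elim A' (Sum.elim B' Γ') c.1) c.2.1 c.2.2 ∈ L ∧
              IsIntegral ℤ ((Sum.elim A' (Sum.elim B' Γ') c.1) c.2.1 c.2.2)) →
            MvPolynomial.eval (fun c => (Sum.elim A' (Sum.elim B' Γ') c.1) c.2.1 c.2.2) P = 0) →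
          ∀ (A' B' : Fin g → Matrix.SpecialLinearGroup (Fin r) ℂ)
            (Γ' : Fin s → Matrix.SpecialLinearGroup (Fin r) ℂ),
            (List.ofFn fun i => A' i * B' i * (A' i)⁻¹ * (B' i)⁻¹).prod * (List.ofFn Γ').prod = 1 →
            (∀ k, IsConj (C k) (Γ' k)) →
            (fun c => (Sum.elim A' (Sum.elim B' Γ') c.1) c.2.1 c.2.2) ∈ U →
            MvPolynomial.eval
              (fun c => (Sum.elim A' (Sum.elim B' Γ') c.1) c.2.1 c.2.2) P = 0 := by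
  intro g s r hg hr C hC
  obtain ⟨n, rfl⟩ : ∃ n, r = n + 1 := ⟨r - 1, by omega⟩
  by_cases hs : s = 0
  · subst hs
    obtain ⟨f, rfl⟩ : ∃ f, g = f + 1 + 0 := ⟨g - 1, by omega⟩
    refine ⟨⊥, inferInstance, fun _ => rfl, ?_⟩
    exact Vale.Agent.P002.Curve.curve_dense (h := 0) (by omega) C (fun k => k.elim0)
      (fun k => k.elim0) (by simp [Vale.Agent.P002.Surface.rel]) (fun k => k.elim0)
  · obtain ⟨f, rfl⟩ : ∃ f, g = f + 1 + 2 := ⟨g - 3, by omega⟩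
    obtain ⟨L, hL, J, B, hB, hJ⟩ := Vale.Agent.P002.Curve.exists_integral_data C hC
    exact ⟨L, hL, fun h => absurd h hs,
      Vale.Agent.P002.Curve.curve_dense (by omega) C J B hB hJ⟩

end Vale.Agent.Results.P002.PuncturedCurvesSLr
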