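import Vale.Agent.P002.VSolvMain

/-!
P002: one number field gives dense integral points on the character varieties, with prescribed
quasi-unipotent classes, of every finitely generated virtually solvable group, in every rank.
-/

namespace Vale.Agent.Results.P002.VirtuallySolvable

open Matrix Vale.Agent.P002.VAb

theorem result {Γ : Type} [Group Γ] {n : ℕ} (g : Fin n → Γ)
    (hg : Subgroup.closure (Set.range g) = ⊤)
    (S : Subgroup Γ) [S.Normal] [S.FiniteIndex] [Group.IsSolvable S]
    (r : ℕ) {s : ℕ} (γc : Fin s → Γ) (c : Fin s → SpecialLinearGroup (Fin r) ℂ)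
    (hc : ∀ i, ∀ z ∈ spectrum ℂ (c i).1, ∃ m : ℕ, 0 < m ∧ z ^ m = 1) :
    ∃ L : IntermediateField ℚ ℂ, FiniteDimensional ℚ L ∧
      ∀ f : MvPolynomial (Fin n × Fin r × Fin r) ℂ,
        (∀ ρ : Γ →* SpecialLinearGroup (Fin r) ℂ, IsSemisimpleRep ρ →
          (∀ i, IsConj (ρ (γc i)) (c i)) → IsIntegralPoint g L ρ →
            MvPolynomial.aeval (coords g ρ) f = 0) →
      ∀ ρ : Γ →* SpecialLinearGroup (Fin r) ℂ, IsSemisimpleRep ρ →
        (∀ i, IsConj (ρ (γc i)) (c i)) → MvPolynomial.aeval (coords g ρ) f = 0 :=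
  Vale.Agent.P002.VSolv.main g hg S γc c hc

end Vale.Agent.Results.P002.VirtuallySolvable
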